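import Mathlib
import Vale.Agent.P260.Defs

/-!
# P260: groups of subexponential growth satisfy Følner's condition
-/

namespace Vale.Agent.P260.H363

open Vale.Agent.P260
open scoped Pointwise

open Classical in
/-- Subexponential growth: for every finite `E` and `c > 1` some power `E ^ n`, `n ≥ 1`, has fewer
than `c ^ n` elements. -/
def SubExp (G : Type*) [Group G] : Prop :=
  ∀ (E : Finset G) (c : ℝ), 1 < c → ∃ n : ℕ, 1 ≤ n ∧ ((E ^ n).card : ℝ) < c ^ n

open Classical in
/-- One small step of growth of the powers of `A`. -/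
theorem SubExp.exists_step {G : Type*} [Group G] (h : SubExp G) (A : Finset G) {ε : ℝ}
    (hε : 0 < ε) : ∃ n : ℕ, ((A ^ (n + 1)).card : ℝ) ≤ (1 + ε) * (A ^ n).card := by
  by_contra hc
  push Not at hc
  have key : ∀ n : ℕ, (1 + ε) ^ n ≤ ((A ^ n).card : ℝ) := by
    intro n
    induction n with
    | zero => simp
    | succ n ih =>
      calc (1 + ε) ^ (n + 1) = (1 + ε) * (1 + ε) ^ n := by ring
        _ ≤ (1 + ε) * ((A ^ n).card : ℝ) := by
            have h1 : (0 : ℝ) ≤ 1 + ε := by linarith
            exact mul_le_mul_of_nonneg_left ih h1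
        _ ≤ ((A ^ (n + 1)).card : ℝ) := (hc n).le
  obtain ⟨n, -, hn⟩ := h A (1 + ε) (by linarith)
  exact absurd (key n) (not_le.2 hn)

open Classical in
/-- **Subexponential growth implies Følner's condition** (no finite generation needed). -/
theorem folner_of_subExp {G : Type*} [Group G] (h : SubExp G) : Folner G := by
  intro E ε hε
  set A : Finset G := insert 1 E with hA
  have h1 : (1 : G) ∈ A := Finset.mem_insert_self _ _
  obtain ⟨n, hn⟩ := h.exists_step A hε
  have h1n : (1 : G) ∈ A ^ n := by
    have := Finset.pow_mem_pow h1 (n := n)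
    simpa using this
  refine ⟨A ^ n, ⟨1, h1n⟩, fun g hg => ?_⟩
  have hgA : g ∈ A := Finset.mem_insert_of_mem hg
  have hsub : A ^ n ⊆ A ^ (n + 1) := by
    intro x hx
    rw [pow_succ']
    exact Finset.mem_mul.2 ⟨1, h1, x, hx, one_mul x⟩
  have himg : ((A ^ n).image fun x => g * x) ⊆ A ^ (n + 1) := by
    intro y hy
    obtain ⟨x, hx, rfl⟩ := Finset.mem_image.1 hy
    rw [pow_succ']
    exact Finset.mem_mul.2 ⟨g, hgA, x, hx, rfl⟩
  have hle : (((A ^ n).image fun x => g * x) \ (A ^ n)).card ≤ (A ^ (n + 1) \ A ^ n).card :=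
    Finset.card_le_card (Finset.sdiff_subset_sdiff himg (Finset.Subset.refl _))
  have hcard : ((A ^ (n + 1) \ A ^ n).card : ℝ) = (A ^ (n + 1)).card - (A ^ n).card := by
    rw [Finset.card_sdiff_of_subset hsub, Nat.cast_sub (Finset.card_le_card hsub)]
  calc ((((A ^ n).image fun x => g * x) \ (A ^ n)).card : ℝ)
      ≤ ((A ^ (n + 1) \ A ^ n).card : ℝ) := by exact_mod_cast hle
    _ = (A ^ (n + 1)).card - (A ^ n).card := hcard
    _ ≤ ε * (A ^ n).card := by linarith

open Classical in
/-- Subexponential growth passes along injective homomorphisms. -/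
theorem SubExp.of_injective {G H : Type*} [Group G] [Group H] (h : SubExp G) (f : H →* G)
    (hf : Function.Injective f) : SubExp H := by
  intro E c hc
  obtain ⟨n, hn, hlt⟩ := h (E.image f) c hc
  refine ⟨n, hn, lt_of_eq_of_lt ?_ hlt⟩
  have h1 : (E ^ n).image f = (E.image f) ^ n := by
    rw [Finset.image_pow]
  rw [← h1, Finset.card_image_of_injective _ hf]

/-- Subexponential growth passes to subgroups. -/
theorem SubExp.subgroup {G : Type*} [Group G] (h : SubExp G) (H : Subgroup G) : SubExp H :=
  h.of_injective H.subtype H.subtype_injective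

end Vale.Agent.P260.H363
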